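import Vale.Agent.P281.H713.SA.Iface
import Vale.Agent.P281.MF.Fr

/-! P281, theorem SA, block R: restriction of pluricanonical forms to a smooth fibre. -/

open scoped Manifold ContDiff Topology
open Set Filter

namespace Vale.Agent.P281.H597.SA

open Vale.Agent.P281 Vale.Agent.P281.MF Vale.Agent.P272.K

set_option linter.unusedSectionVars false

universe u

section

variable {E E' E₀ : Type} [NormedAddCommGroup E] [NormedSpace ℂ E] [FiniteDimensional ℂ E]
  [NormedAddCommGroup E'] [NormedSpace ℂ E'] [FiniteDimensional ℂ E']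
  [NormedAddCommGroup E₀] [NormedSpace ℂ E₀] [FiniteDimensional ℂ E₀]

/-- Change of frames in `det (A, Q)`. -/
theorem key_alg (e : E ≃L[ℂ] (E' × E₀)) {A P : E →L[ℂ] E'} {Q P' : E →L[ℂ] E₀}
    {D D' : E₀ →L[ℂ] E} {dψ : E →L[ℂ] E} {dφ : E₀ →L[ℂ] E₀} {κ : E' →L[ℂ] E'}
    (hAD : ∀ v, A (D v) = 0) (hQ : ∀ v, Q (D v) = v) (hP : P.comp dψ = κ.comp A)
    (hD : dψ.comp D = D'.comp dφ) (h1 : (P'.comp D').det ≠ 0) (h2 : dφ.det ≠ 0) :
    JP e P P' * dψ.det = κ.det * ((P'.comp D').det * dφ.det) * JP e A Q := by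
  set B : E₀ →L[ℂ] E₀ := (P'.comp D').comp dφ with hB
  have hBd : B.det = (P'.comp D').det * dφ.det := clm_det_comp _ _
  have hB0 : B.det ≠ 0 := by rw [hBd]; exact mul_ne_zero h1 h2
  let Be : E₀ ≃L[ℂ] E₀ := (LinearMap.equivOfDetNeZero ((B : E₀ →L[ℂ] E₀) : E₀ →ₗ[ℂ] E₀)
    hB0).toContinuousLinearEquiv
  have hBe : ∀ v, Be v = B v := fun v => rfl
  let Q' : E →L[ℂ] E₀ := (Be.symm : E₀ →L[ℂ] E₀).comp (P'.comp dψ)
  have hQ' : ∀ v, Q' (D v) = v := by
    intro v
    have h3 : dψ (D v) = D' (dφ v) := congrArg (fun T : E₀ →L[ℂ] E => T v) hD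
    have h4 : Q' (D v) = Be.symm (P' (dψ (D v))) := rfl
    rw [h4, h3]
    have h5 : P' (D' (dφ v)) = Be v := rfl
    rw [h5, Be.symm_apply_apply]
  have hBQ : B.comp Q' = P'.comp dψ := by
    refine ContinuousLinearMap.ext fun x => ?_
    have h3 : (B.comp Q') x = Be (Be.symm (P' (dψ x))) := rfl
    rw [h3, Be.apply_symm_apply]
    rfl
  rw [← JP_comp, hP, ← hBQ, JP_left, hBd, JP_indep e hAD hQ hQ']

end

section

variable {E E' E₀ : Type} [NormedAddCommGroup E] [NormedSpace ℂ E] [FiniteDimensional ℂ E]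
  [NormedAddCommGroup E'] [NormedSpace ℂ E'] [FiniteDimensional ℂ E']
  [NormedAddCommGroup E₀] [NormedSpace ℂ E₀] [FiniteDimensional ℂ E₀]
variable {X Y F : Type u} [TopologicalSpace X] [ChartedSpace E X] [IsManifold 𝓘(ℂ, E) ω X]
  [TopologicalSpace Y] [ChartedSpace E' Y] [IsManifold 𝓘(ℂ, E') ω Y]
  [TopologicalSpace F] [ChartedSpace E₀ F] [IsManifold 𝓘(ℂ, E₀) ω F]

/-- The Jacobians of `X` and `F` along a smooth fibre. -/
theorem adj_local (e : E ≃L[ℂ] (E' × E₀)) {f : X → Y} {i : F → X} (hf : ∀ x, HolM E E' f x)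
    (hi : ∀ p, HolM E₀ E i p) (p₀ : F) (hconst : ∀ p, f (i p) = f (i p₀))
    (hsub : Function.Surjective (dM E E' f (i p₀)))
    (himm : Function.Injective (dM E₀ E i p₀)) :
    ∃ η : F → ℂ, HolV E₀ η p₀ ∧ ∀ᶠ p in 𝓝 p₀, ∀ Q : E →L[ℂ] E₀,
      (∀ v, Q (dM E₀ E i p v) = v) →
        jac E (chartAt E (i p₀)) (i p) =
          η p * jac E₀ (chartAt E₀ p₀) p * JP e (dM E E' f (i p)) Q := by
  set ψ := chartAt E (i p₀) with hψ
  set ψY := chartAt E' (f (i p₀)) with hψY
  set φ := chartAt E₀ p₀ with hφ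
  have hs : i p₀ ∈ ψ.source := mem_chart_source E (i p₀)
  have hsY : f (i p₀) ∈ ψY.source := mem_chart_source E' (f (i p₀))
  have hs₀ : p₀ ∈ φ.source := mem_chart_source E₀ p₀
  let G : X → E' := fun z => ψY (f z)
  have hG : HolV E G (i p₀) := HolV.comp (h := (ψY : Y → E')) (HolV.chart hsY) (hf (i p₀))
  let I : F → E := fun p => ψ (i p)
  have hI : HolV E₀ I p₀ := HolV.comp (h := (ψ : X → E)) (HolV.chart hs) (hi p₀)
  let P : F → (E →L[ℂ] E') := fun p => fderiv ℂ (G ∘ ψ.symm) (ψ (i p))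
  let D : F → (E₀ →L[ℂ] E) := fun p => fderiv ℂ (I ∘ φ.symm) (φ p)
  have hP : HolV E₀ P p₀ := by
    have h1 : ContDiffAt ℂ ω (fderiv ℂ (G ∘ ψ.symm)) (ψ (i p₀)) :=
      (hG.rep hs).fderiv_right (by simp)
    exact HolV.comp_contDiff (G := fderiv ℂ (G ∘ ψ.symm)) (v := I) h1 hI
  have hD : HolV E₀ D p₀ := by
    have h1 : ContDiffAt ℂ ω (fderiv ℂ (I ∘ φ.symm)) (φ p₀) :=
      (hI.rep hs₀).fderiv_right (by simp)
    exact HolV.comp_contDiff (G := fderiv ℂ (I ∘ φ.symm)) (v := (φ : F → E₀)) h1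
      (HolV.chart hs₀)
  have hic : ContinuousAt i p₀ := (hi p₀).continuousAt
  set κ : E' →L[ℂ] E' := dV E' (ψY : Y → E') (f (i p₀)) with hκ
  -- chain rules
  have evP : ∀ᶠ p in 𝓝 p₀, (P p).comp (dV E (ψ : X → E) (i p)) =
      κ.comp (dM E E' f (i p)) := by
    filter_upwards [hic.eventually hG.eventually, hic.eventually (ψ.open_source.mem_nhds hs)]
      with p h1 h2
    have h3 : dV E G (i p) = (fderiv ℂ (G ∘ ψ.symm) (ψ (i p))).comp (dV E (ψ : X → E) (i p)) :=
      dV_eq_chart h2 h1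
    have h4 : dV E G (i p) = (dV E' (ψY : Y → E') (f (i p))).comp (dM E E' f (i p)) :=
      dV_comp (h := (ψY : Y → E')) (HolV.chart (x₀ := f (i p₀)) (by
        rw [hconst p]; exact hsY)) (hf (i p))
    rw [← h3, h4, hconst p]
  have evD : ∀ᶠ p in 𝓝 p₀, (dV E (ψ : X → E) (i p)).comp (dM E₀ E i p) =
      (D p).comp (dV E₀ (φ : F → E₀) p) := by
    filter_upwards [hI.eventually, φ.open_source.mem_nhds hs₀,
      hic.eventually (ψ.open_source.mem_nhds hs)] with p h1 h2 h3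
    have h4 : dV E₀ I p = (dV E (ψ : X → E) (i p)).comp (dM E₀ E i p) :=
      dV_comp (h := (ψ : X → E)) (HolV.chart h3) (hi p)
    have h5 : dV E₀ I p = (fderiv ℂ (I ∘ φ.symm) (φ p)).comp (dV E₀ (φ : F → E₀) p) :=
      dV_eq_chart h2 h1
    rw [← h4, h5]
  -- `A D = 0`
  have hAD : ∀ p v, dM E E' f (i p) (dM E₀ E i p v) = 0 := by
    intro p v
    have h1 : (dM E E' f (i p)).comp (dM E₀ E i p) = dM E₀ E' (fun p => f (i p)) p := by
      have := mfderiv_comp p (ContMDiffAt.mdifferentiableAt (hf (i p)) (by simp))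
        (ContMDiffAt.mdifferentiableAt (hi p) (by simp))
      exact this.symm
    have h2 : (fun p => f (i p)) = fun _ => f (i p₀) := funext hconst
    have h3 : dM E₀ E' (fun p => f (i p)) p = 0 := by
      rw [h2]; unfold dM; rw [mfderiv_const]; rfl
    have h4 := congrArg (fun T : E₀ →L[ℂ] E' => T v) (h1.trans h3)
    exact h4
  -- at the centre
  have hφs : Function.Surjective (dV E₀ (φ : F → E₀) p₀) := chart_surj hs₀
  have hDinj : Function.Injective (D p₀) := by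
    rw [injective_iff_map_eq_zero]
    intro ζ hζ
    obtain ⟨ξ, rfl⟩ := hφs ζ
    have h1 := congrArg (fun A : E₀ →L[ℂ] E => A ξ) evD.self_of_nhds
    simp only [ContinuousLinearMap.comp_apply] at h1
    have h1' : (dV E (ψ : X → E) (i p₀)) (dM E₀ E i p₀ ξ) = 0 := h1.trans hζ
    have h2 : Function.Injective (dV E (ψ : X → E) (i p₀)) :=
      LinearMap.injective_iff_surjective.2 (chart_surj (E := E) hs)
    have h3 : dM E₀ E i p₀ ξ = 0 := h2 (by rw [map_zero]; exact h1')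
    have h4 : ξ = 0 := himm (by rw [h3, map_zero])
    rw [h4, map_zero]
  obtain ⟨P', hP'⟩ := exists_left_inv hDinj
  have hAsurj : Function.Surjective (P p₀) := by
    intro w
    obtain ⟨w', hw'⟩ := chart_surj (E := E') hsY w
    obtain ⟨ξ, hξ⟩ := hsub w'
    refine ⟨dV E (ψ : X → E) (i p₀) ξ, ?_⟩
    have h2 := congrArg (fun A : E →L[ℂ] E' => A ξ) evP.self_of_nhds
    have h3 : (P p₀) (dV E (ψ : X → E) (i p₀) ξ) = κ (dM E E' f (i p₀) ξ) := h2
    rw [h3, hξ]
    exact hw'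
  have hPD : ∀ v, (P p₀) (D p₀ v) = 0 := by
    intro v
    obtain ⟨ξ, rfl⟩ := hφs v
    have h1 := congrArg (fun A : E₀ →L[ℂ] E => A ξ) evD.self_of_nhds
    have h1' : (dV E (ψ : X → E) (i p₀)) (dM E₀ E i p₀ ξ) =
      (D p₀) (dV E₀ (φ : F → E₀) p₀ ξ) := h1
    have h2 := congrArg (fun A : E →L[ℂ] E' => A (dM E₀ E i p₀ ξ)) evP.self_of_nhds
    have h2' : (P p₀) (dV E (ψ : X → E) (i p₀) (dM E₀ E i p₀ ξ)) =
      κ (dM E E' f (i p₀) (dM E₀ E i p₀ ξ)) := h2
    rw [← h1', h2', hAD, map_zero]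
  -- the functions
  have hJ0 : JP e (P p₀) P' ≠ 0 := JP_ne_zero e hPD hP' hAsurj
  have hJ : HolV E₀ (fun p => JP e (P p) P') p₀ := by
    have h1 : ContDiff ℂ ω (fun P : E →L[ℂ] E' => JP e P P') := by
      have h2 : (fun P : E →L[ℂ] E' => JP e P P') = fun P : E →L[ℂ] E' =>
          (((ContinuousLinearMap.inl ℂ E' E₀).comp P +
            (ContinuousLinearMap.inr ℂ E' E₀).comp P').comp
              (e.symm : (E' × E₀) →L[ℂ] E)).det := by
        funext P
        unfold JP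
        congr 1
        refine ContinuousLinearMap.ext fun q => ?_
        simp
      rw [h2]
      exact contDiff_det.comp (((contDiff_const.clm_comp contDiff_id).add
        contDiff_const).clm_comp contDiff_const)
    exact HolV.comp_contDiff (G := fun P : E →L[ℂ] E' => JP e P P') h1.contDiffAt hP
  have hB : HolV E₀ (fun p => (P'.comp (D p)).det) p₀ := by
    have h1 : ContDiff ℂ ω (fun D : E₀ →L[ℂ] E => (P'.comp D).det) :=
      contDiff_det.comp (contDiff_const.clm_comp contDiff_id)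
    exact HolV.comp_contDiff (G := fun D : E₀ →L[ℂ] E => (P'.comp D).det) h1.contDiffAt hD
  have hB0 : (P'.comp (D p₀)).det ≠ 0 := by
    have h1 : P'.comp (D p₀) = ContinuousLinearMap.id ℂ E₀ :=
      ContinuousLinearMap.ext fun v => hP' v
    rw [h1]
    have h2 : (ContinuousLinearMap.id ℂ E₀).det = 1 := by simp [ContinuousLinearMap.det]
    rw [h2]
    exact one_ne_zero
  refine ⟨fun p => κ.det * (P'.comp (D p)).det / JP e (P p) P',
    HolV.div ((HolV.const κ.det p₀).mul hB) hJ hJ0, ?_⟩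
  filter_upwards [evP, evD, hJ.continuousAt.eventually_ne hJ0,
    hB.continuousAt.eventually_ne hB0, φ.open_source.mem_nhds hs₀] with p h1 h2 h3 h4 h5 Q hQ
  have h6 : (dV E₀ (φ : F → E₀) p).det ≠ 0 := jac_chart_ne_zero h5
  have key := key_alg e (hAD p) hQ h1 h2 h4 h6
  have key' : JP e (P p) P' * jac E ψ (i p) =
      κ.det * ((P'.comp (D p)).det * jac E₀ φ p) * JP e (dM E E' f (i p)) Q := key
  show jac E ψ (i p) = κ.det * (P'.comp (D p)).det / JP e (P p) P' * jac E₀ φ p *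
    JP e (dM E E' f (i p)) Q
  rw [div_mul_eq_mul_div, div_mul_eq_mul_div, eq_div_iff h3, mul_comm, key']
  ring

/-- Restriction of pluricanonical forms. -/
theorem restr (e : E ≃L[ℂ] (E' × E₀)) {f : X → Y} {i : F → X} (hf : ∀ x, HolM E E' f x)
    (h : H713.IsSmoothFibre E E' E₀ f i) :
    ∃ G : F → ℂ, (∀ t, G t ≠ 0) ∧ ∀ (m : ℕ) (s : X → ℂ),
      J.IsSection E (fun (D : Set X) z g => J.IsLocalEq E D g z) m 0 s →
      J.IsSection E₀ (fun (D : Set F) z g => J.IsLocalEq E₀ D g z) m 0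
        (fun t => s (i t) * G t ^ m) := by
  have hi : ∀ p, HolM E₀ E i p := fun p => h.hol p
  have himm : ∀ p, Function.Injective (dM E₀ E i p) := h.immersive
  have hsub : ∀ p, Function.Surjective (dM E E' f (i p)) := h.submersive
  choose Q hQ using fun p => exists_left_inv (himm p)
  have hAD : ∀ p v, dM E E' f (i p) (dM E₀ E i p v) = 0 := by
    intro p v
    have h1 : (dM E E' f (i p)).comp (dM E₀ E i p) = dM E₀ E' (fun p => f (i p)) p := by
      have := mfderiv_comp p (ContMDiffAt.mdifferentiableAt (hf (i p)) (by simp))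
        (ContMDiffAt.mdifferentiableAt (hi p) (by simp))
      exact this.symm
    have h2 : (fun p => f (i p)) = fun _ => f (i p) := funext fun p' => h.const p' p
    have h3 : dM E₀ E' (fun p => f (i p)) p = 0 := by
      rw [h2]; unfold dM; rw [mfderiv_const]; rfl
    have h4 := congrArg (fun T : E₀ →L[ℂ] E' => T v) (h1.trans h3)
    exact h4
  have hJ : ∀ p, JP e (dM E E' f (i p)) (Q p) ≠ 0 := fun p =>
    JP_ne_zero e (hAD p) (hQ p) (hsub p)
  refine ⟨fun p => (JP e (dM E E' f (i p)) (Q p))⁻¹, fun p => inv_ne_zero (hJ p), ?_⟩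
  intro m s hs p₀
  obtain ⟨T, g, a, -, -, ha, hev⟩ := hs (i p₀)
  obtain ⟨η, hη, hηe⟩ := adj_local e hf hi p₀ (fun p => h.const p p₀) (hsub p₀) (himm p₀)
  refine ⟨∅, fun _ _ => 0, fun p => a (i p) * η p ^ m, ?_, ?_, ?_, ?_⟩
  · intro D hD
    exact absurd rfl hD
  · intro D hD
    exact absurd hD (Finset.notMem_empty D)
  · have h1 : HolV E a (i p₀) := ha
    exact (HolV.comp (h := a) h1 (hi p₀)).mul (hη.pow m)
  · filter_upwards [hηe, (hi p₀).continuousAt.eventually hev] with p h1 h2 _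
    have h3 : s (i p) = a (i p) * jac E (chartAt E (i p₀)) (i p) ^ m := by
      have h4 : ∏ D ∈ T, g D (i p) ^ (0 : Set X → ℕ) D = 1 := by
        refine Finset.prod_eq_one fun D _ => ?_
        rw [Pi.zero_apply, pow_zero]
      have h5 := h2 (by rw [h4]; exact one_ne_zero)
      rw [h4, mul_one] at h5
      exact h5
    rw [Finset.prod_empty, mul_one, h3, h1 (Q p) (hQ p)]
    show a (i p) * (η p * jac E₀ (chartAt E₀ p₀) p * JP e (dM E E' f (i p)) (Q p)) ^ m *
      ((JP e (dM E E' f (i p)) (Q p))⁻¹) ^ m =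
        a (i p) * η p ^ m * jac E₀ (chartAt E₀ p₀) p ^ m
    have h6 := hJ p
    set j := JP e (dM E E' f (i p)) (Q p)
    rw [mul_pow, mul_pow, mul_assoc, mul_assoc, mul_assoc, ← mul_pow, mul_inv_cancel₀ h6, one_pow,
      mul_one]
    ring

end

/-- **Block R**. -/
theorem restrPart : H713.SA.RestrPart := by
  intro n p d hn Z Y F _ _ _ _ _ _ _ _ _ f hf i hi
  have e : Cm n ≃L[ℂ] (Cm p × Cm d) := ContinuousLinearEquiv.ofFinrankEq (by
    rw [Module.finrank_prod]
    simp [Cm, hn])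
  exact restr e (fun x => hf x) hi

end Vale.Agent.P281.H597.SA
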